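import Vale.Agent.P163.H841.Defs

/-!
Definitions for the statement: decay rate with iterated logarithms, Gibbs states in an external
field.
-/

open MeasureTheory
open scoped RealInnerProductSpace

namespace Vale.Agent.N163

open Vale.Agent.P163.Model Vale.Agent.P163.Universal

/-- `exp (-c t / L_j t)`, where `L_j` is the `j`-fold iterate of `t ↦ log (t + 3)`. -/
noncomputable def rate (c : ℝ) (j : ℕ) (t : ℝ) : ℝ :=
  Real.exp (-c * t / (fun s => Real.log (s + 3))^[j] t)

/-- Gibbs states of the O(n) model on the square lattice at inverse temperature `β` in the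
external field `h` (one vector `h y` at each site `y`): the probability measures that satisfy the
Dobrushin-Lanford-Ruelle equations. -/
def IsGibbsIn (n : ℕ) (β : ℝ) (h : ℤ × ℤ → E n) (μ : Measure (ℤ × ℤ → Spin n)) : Prop :=
  IsProbabilityMeasure μ ∧ ∀ (Λ : Finset (ℤ × ℤ)) (f : (ℤ × ℤ → Spin n) → ℝ), Continuous f →
    ∫ σ, f σ ∂μ = ∫ σ, (∫ s, f (glue Λ s σ)
      ∂((bcState n β Λ σ).tilted fun s => ∑ y : Λ, ⟪h y, (s y : E n)⟫)) ∂μ

end Vale.Agent.N163
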