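import Vale.Agent.P163.H841.Rec
import Vale.Agent.P163.H354.Num
import Vale.Agent.N163.Defs
import Mathlib.Analysis.PSeries

/-!
Solution of the recursion with iterated logarithms, and summability over the lattice.
-/

open Filter Topology

namespace Vale.Agent.N163

open Vale.Agent.P163.H841 Vale.Agent.P163.Universal

/-- iterated logarithm -/
noncomputable def LL (j : ℕ) (t : ℝ) : ℝ := (fun s => Real.log (s + 3))^[j] t

lemma LL_succ (j : ℕ) (t : ℝ) : LL (j + 1) t = LL j (Real.log (t + 3)) := by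
  unfold LL; rw [Function.iterate_succ_apply]

lemma LL_succ' (j : ℕ) (t : ℝ) : LL (j + 1) t = Real.log (LL j t + 3) := by
  unfold LL; rw [Function.iterate_succ_apply']

lemma one_le_log {t : ℝ} (ht : 0 ≤ t) : 1 ≤ Real.log (t + 3) := by
  rw [Real.le_log_iff_exp_le (by linarith)]
  have := Real.exp_one_lt_d9
  linarith

lemma LL_nonneg (j : ℕ) {t : ℝ} (ht : 0 ≤ t) : 0 ≤ LL j t := by
  induction j with
  | zero => exact ht
  | succ j ih => rw [LL_succ']; linarith [one_le_log ih]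

lemma one_le_LL (j : ℕ) {t : ℝ} (ht : 0 ≤ t) : 1 ≤ LL (j + 1) t := by
  rw [LL_succ']; exact one_le_log (LL_nonneg j ht)

lemma LL_mono (j : ℕ) {s t : ℝ} (hs : 0 ≤ s) (h : s ≤ t) : LL j s ≤ LL j t := by
  induction j with
  | zero => exact h
  | succ j ih =>
    rw [LL_succ', LL_succ']
    exact Real.log_le_log (by linarith [LL_nonneg j hs]) (by linarith)

lemma log_add_five {t : ℝ} (ht : 0 ≤ t) : Real.log (t + 5) ≤ t + 2 := by
  have h1 := Real.log_le_sub_one_of_pos (x := (t + 5) / 5) (by positivity)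
  rw [Real.log_div (by positivity) (by norm_num)] at h1
  have h2 : Real.log 5 ≤ 2 := by
    rw [Real.log_le_iff_le_exp (by norm_num)]
    have := Real.quadratic_le_exp_of_nonneg (x := 2) (by norm_num)
    linarith
  linarith

lemma LL_le (j : ℕ) {t : ℝ} (ht : 0 ≤ t) : LL j t ≤ t + 2 := by
  induction j with
  | zero => show t ≤ t + 2; linarith
  | succ j ih =>
    rw [LL_succ']
    refine le_trans ?_ (log_add_five ht)
    exact Real.log_le_log (by linarith [LL_nonneg j ht]) (by linarith)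

lemma LL_le_sqrt (j : ℕ) {t : ℝ} (ht : 1 ≤ t) : LL (j + 1) t ≤ 5 * √t := by
  rw [LL_succ']
  have h0 : 0 ≤ t := by linarith
  have h1 : Real.log (LL j t + 3) ≤ Real.log (t + 5) :=
    Real.log_le_log (by linarith [LL_nonneg j h0]) (by linarith [LL_le j h0])
  have h2 : Real.log (t + 5) = 2 * Real.log √(t + 5) := by
    rw [Real.log_sqrt (by linarith)]; ring
  have h3 := Real.log_le_sub_one_of_pos (x := √(t + 5)) (Real.sqrt_pos.2 (by linarith))
  have h4 : √(t + 5) ≤ 5 / 2 * √t := by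
    rw [Real.sqrt_le_left (by positivity), mul_pow, Real.sq_sqrt h0]
    linarith
  linarith

lemma log_scale {K y : ℝ} (hK : 1 ≤ K) (hy : 0 ≤ y) :
    Real.log (K * y + 3) ≤ (1 + Real.log K) * Real.log (y + 3) := by
  have h1 : Real.log (K * y + 3) ≤ Real.log (K * (y + 3)) :=
    Real.log_le_log (by positivity) (by linarith)
  rw [Real.log_mul (by positivity) (by positivity)] at h1
  have h2 := one_le_log hy
  have h3 := Real.log_nonneg hK
  nlinarith

lemma LL_sq (j : ℕ) {A : ℝ} (hA : 1 ≤ A) : ∃ K : ℝ, 1 ≤ K ∧ ∀ t : ℝ, 1 ≤ t →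
    LL (j + 1) (A * t ^ 2) ≤ K * LL (j + 1) t := by
  induction j with
  | zero =>
    have hl := Real.log_nonneg hA
    refine ⟨2 + Real.log A, by linarith, fun t ht => ?_⟩
    show Real.log (A * t ^ 2 + 3) ≤ (2 + Real.log A) * Real.log (t + 3)
    have h1 : Real.log (A * t ^ 2 + 3) ≤ Real.log (A * (t + 3) ^ 2) :=
      Real.log_le_log (by positivity) (by nlinarith)
    rw [Real.log_mul (by positivity) (by positivity), Real.log_pow] at h1
    have h2 := one_le_log (t := t) (by linarith)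
    push_cast at h1
    nlinarith
  | succ j ih =>
    obtain ⟨K, hK, h⟩ := ih
    have hl := Real.log_nonneg hK
    refine ⟨1 + Real.log K, by linarith, fun t ht => ?_⟩
    rw [LL_succ' (j + 1), LL_succ' (j + 1)]
    refine le_trans ?_ (log_scale hK (LL_nonneg _ (by linarith)))
    exact Real.log_le_log (by linarith [LL_nonneg (j + 1) (t := A * t ^ 2) (by positivity)])
      (by linarith [h t ht])

variable {α : ℕ → ℝ} {D : ℝ}

/-- one more logarithm -/
lemma boost (h : Rec α D) (j : ℕ) {C c : ℝ} (hC : 0 < C) (hc : 0 < c)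
    (hb : ∀ R : ℕ, α R ≤ C * Real.exp (-c * R / LL (j + 1) R)) :
    ∃ c' : ℝ, 0 < c' ∧ ∀ R : ℕ, α R ≤ C * Real.exp (-c' * R / LL (j + 2) R) := by
  have hD := h.D_pos
  obtain ⟨B, hB⟩ : ∃ B : ℝ, B = 1 + 2 * D * C := ⟨_, rfl⟩
  have hB1 : 1 ≤ B := by rw [hB]; have : 0 ≤ 2 * D * C := by positivity
                         linarith
  obtain ⟨a, ha⟩ : ∃ a : ℝ, a = 1 + 10 * B / c := ⟨_, rfl⟩
  have ha1 : 1 ≤ a := by rw [ha]; have : 0 ≤ 10 * B / c := by positivity
                         linarith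
  have hac : B ≤ c * a / 10 := by
    have e : c * a / 10 = c / 10 + B := by rw [ha]; field_simp
    rw [e]; have : 0 ≤ c / 10 := by positivity
    linarith
  obtain ⟨K, hK, hKb⟩ := LL_sq j (A := 2 * a ^ 2) (by nlinarith)
  refine ⟨c / (6 * K), by positivity, fun R => ?_⟩
  have hR0 : (0 : ℝ) ≤ R := Nat.cast_nonneg R
  obtain ⟨ℓ, hℓ⟩ : ∃ ℓ : ℝ, ℓ = Real.log (R + 3) := ⟨_, rfl⟩
  have hℓ1 : 1 ≤ ℓ := by rw [hℓ]; exact one_le_log hR0
  have hx1 : 1 ≤ (a * ℓ) ^ 2 := one_le_pow₀ (by nlinarith)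
  obtain ⟨L, hLdef⟩ : ∃ L : ℕ, L = ⌈(a * ℓ) ^ 2⌉₊ := ⟨_, rfl⟩
  have hL1 : (a * ℓ) ^ 2 ≤ L := by rw [hLdef]; exact Nat.le_ceil _
  have hL2 : (L : ℝ) ≤ 2 * a ^ 2 * ℓ ^ 2 := by
    have := Nat.ceil_lt_add_one (a := (a * ℓ) ^ 2) (by positivity)
    rw [← hLdef] at this
    nlinarith
  have hLr : (1 : ℝ) ≤ L := hx1.trans hL1
  have hLn : 1 ≤ L := by exact_mod_cast hLr
  obtain ⟨g, hg⟩ : ∃ g : ℝ, g = LL (j + 1) L := ⟨_, rfl⟩
  obtain ⟨G, hG⟩ : ∃ G : ℝ, G = LL (j + 2) R := ⟨_, rfl⟩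
  have hg1 : 1 ≤ g := by rw [hg]; exact one_le_LL j (by linarith)
  have hG1 : 1 ≤ G := by rw [hG]; exact one_le_LL (j + 1) hR0
  have hgG : g ≤ K * G := by
    rw [hg, hG, LL_succ (j + 1), ← hℓ]
    exact (LL_mono _ (by linarith) hL2).trans (hKb ℓ hℓ1)
  rw [← hG]
  have hcmp : c / (6 * K) * R / G ≤ c / 6 * (R / g) := by
    have e : c / (6 * K) * R / G = c / 6 * (R / (K * G)) := by field_simp
    rw [e]
    gcongr
  have eneg : -(c / (6 * K)) * R / G = -(c / (6 * K) * R / G) := by ring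
  rw [eneg]
  by_cases hRL : R < L
  · refine (hb R).trans (mul_le_mul_of_nonneg_left ?_ hC.le)
    rw [Real.exp_le_exp]
    have h1 : LL (j + 1) R ≤ g := by
      rw [hg]; exact LL_mono _ hR0 (by exact_mod_cast hRL.le)
    have h2 := one_le_LL j hR0
    have h3 : R / g ≤ R / LL (j + 1) R := by gcongr
    have h4 : 0 ≤ R / g := by positivity
    have e : -c * R / LL (j + 1) R = -(c * (R / LL (j + 1) R)) := by ring
    rw [e]
    nlinarith
  · push Not at hRL
    have hRLr : (L : ℝ) ≤ R := by exact_mod_cast hRL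
    obtain ⟨q, hq⟩ : ∃ q : ℝ, q = Real.exp (-(c / 2 * (L / g))) := ⟨_, rfl⟩
    have hq0 : 0 < q := by rw [hq]; exact Real.exp_pos _
    have hq1 : q ≤ 1 := by
      rw [hq, Real.exp_le_one_iff]
      have : 0 ≤ c / 2 * (L / g) := by positivity
      linarith
    have hαL : α L ≤ C * q ^ 2 := by
      refine (hb L).trans (le_of_eq ?_)
      rw [hq, ← Real.exp_nat_mul, ← hg]
      congr 2
      push_cast
      ring
    have hLg : a * ℓ / 5 ≤ L / g := by
      have h1 : g ≤ 5 * √L := by rw [hg]; exact LL_le_sqrt j hLr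
      have h2 : a * ℓ ≤ √L := Real.le_sqrt_of_sq_le hL1
      have h3 : √(L : ℝ) * √L = L := Real.mul_self_sqrt (by linarith)
      rw [div_le_div_iff₀ (by norm_num) (by linarith)]
      have h4 : 0 ≤ √(L : ℝ) := Real.sqrt_nonneg _
      calc a * ℓ * g ≤ √L * (5 * √L) := mul_le_mul h2 h1 (by linarith) h4
        _ = L * 5 := by linarith
    have hpoly : 2 * D * ((R : ℝ) + 3) * C * q ≤ 1 := by
      have h1 : q ≤ Real.exp (-(B * ℓ)) := by
        rw [hq, Real.exp_le_exp]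
        have h2 : B * ℓ ≤ c * a / 10 * ℓ := mul_le_mul_of_nonneg_right hac (by linarith)
        have h3 : c / 2 * (a * ℓ / 5) ≤ c / 2 * (L / g) :=
          mul_le_mul_of_nonneg_left hLg (by positivity)
        linarith
      have h2 : (R : ℝ) + 3 = Real.exp ℓ := by rw [hℓ, Real.exp_log (by positivity)]
      have h3 : 2 * D * C ≤ Real.exp (B - 1) := by
        have := Real.add_one_le_exp (B - 1)
        linarith
      calc 2 * D * ((R : ℝ) + 3) * C * q = (2 * D * C) * (((R : ℝ) + 3) * q) := by ring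
        _ ≤ Real.exp (B - 1) * (Real.exp ℓ * Real.exp (-(B * ℓ))) := by
            rw [h2]
            gcongr
        _ = Real.exp ((B - 1) * (1 - ℓ)) := by
            rw [← Real.exp_add, ← Real.exp_add]; congr 1; ring
        _ ≤ 1 := by
            rw [Real.exp_le_one_iff]
            nlinarith only [hB1, hℓ1]
    have hqf : D * ((R : ℝ) + L + 1) * α L ≤ q := by
      have h1 : (R : ℝ) + L + 1 ≤ 2 * (R + 3) := by linarith
      calc D * ((R : ℝ) + L + 1) * α L ≤ D * (2 * (R + 3)) * (C * q ^ 2) :=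
            mul_le_mul (mul_le_mul_of_nonneg_left h1 hD) hαL (h.nonneg L) (by positivity)
        _ = (2 * D * ((R : ℝ) + 3) * C * q) * q := by ring
        _ ≤ 1 * q := mul_le_mul_of_nonneg_right hpoly hq0.le
        _ = q := one_mul q
    obtain ⟨i, hidef⟩ : ∃ i : ℕ, i = (R - L) / (2 * L + 1) := ⟨_, rfl⟩
    have hi1 : i * (2 * L + 1) ≤ R - L := by rw [hidef]; exact Nat.div_mul_le_self _ _
    have hi2 : R - L < (i + 1) * (2 * L + 1) := by
      have h0 := Nat.lt_mul_div_succ (R - L) (show 0 < 2 * L + 1 by omega)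
      rw [← hidef] at h0
      rwa [mul_comm] at h0
    have h1 := h.iter hLn hqf hq1 i (by omega)
    have h2 : α R ≤ α (L + i * (2 * L + 1)) := h.anti _ _ (by omega)
    have h3 : α R ≤ C * q ^ (i + 2) := by
      calc α R ≤ q ^ i * α L := h2.trans h1
        _ ≤ q ^ i * (C * q ^ 2) := mul_le_mul_of_nonneg_left hαL (by positivity)
        _ = C * q ^ (i + 2) := by ring
    refine h3.trans (mul_le_mul_of_nonneg_left ?_ hC.le)
    rw [hq, ← Real.exp_nat_mul, Real.exp_le_exp]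
    have hi3 : (R : ℝ) - L ≤ (i + 1) * (2 * L + 1) := by
      have h4 : ((R - L : ℕ) : ℝ) ≤ ((i + 1) * (2 * L + 1) : ℕ) := by exact_mod_cast hi2.le
      rw [Nat.cast_sub hRL] at h4
      push_cast at h4
      exact h4
    have hi4 : (R : ℝ) / (3 * L) ≤ (i + 2 : ℕ) := by
      rw [div_le_iff₀ (by positivity)]
      push_cast
      have hi0 : (0 : ℝ) ≤ i := by positivity
      nlinarith only [hi3, hLr, hi0]
    have h5 : c / 6 * (R / g) ≤ ((i + 2 : ℕ) : ℝ) * (c / 2 * (L / g)) := by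
      calc c / 6 * (R / g) = (R / (3 * L)) * (c / 2 * (L / g)) := by
            field_simp
            ring
        _ ≤ ((i + 2 : ℕ) : ℝ) * (c / 2 * (L / g)) := by gcongr
    linarith

theorem rec_rate (h : Rec α D) (j : ℕ) : ∃ C c : ℝ, 0 < C ∧ 0 < c ∧
    ∀ R : ℕ, α R ≤ C * rate c (j + 1) R := by
  induction j with
  | zero =>
    obtain ⟨C, c, hC, hc, hb⟩ := h.nearly one_pos
    refine ⟨C, c, hC, hc, fun R => ?_⟩
    have := hb R
    rwa [Real.rpow_one] at this
  | succ j ih =>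
    obtain ⟨C, c, hC, hc, hb⟩ := ih
    obtain ⟨c', hc', hb'⟩ := boost h j hC hc hb
    exact ⟨C, c', hC, hc', hb'⟩

/-- polynomial decay -/
lemma rec_poly (h : Rec α D) : ∃ K : ℝ, 0 < K ∧ ∀ R : ℕ, α R ≤ K / ((R : ℝ) + 1) ^ 4 := by
  obtain ⟨C, c, hC, hc, hb⟩ := h.nearly one_pos
  obtain ⟨K, hK, hk⟩ := Vale.Agent.P163.H354.poly_exp (a := c / 4) (ε := 1) (by positivity) one_pos
  refine ⟨C * K ^ 4, by positivity, fun R => (hb R).trans ?_⟩
  have h1 := pow_le_pow_left₀ (by positivity) (hk R) 4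
  rw [mul_pow, ← Real.exp_nat_mul] at h1
  have e : ((4 : ℕ) : ℝ) * -(c / 4 * R / Real.log (R + 3) ^ (1 : ℝ)) =
      -c * R / Real.log (R + 3) ^ (1 : ℝ) := by push_cast; ring
  rw [e] at h1
  rw [le_div_iff₀ (by positivity), mul_assoc]
  refine mul_le_mul_of_nonneg_left ?_ hC.le
  rwa [mul_comm]

lemma rec_tendsto (h : Rec α D) : Tendsto α atTop (𝓝 0) := by
  rw [Metric.tendsto_atTop]
  intro ε hε
  obtain ⟨R, hR, hs⟩ := h.small (ε / 2) (by positivity)
  refine ⟨R, fun m hm => ?_⟩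
  have h1 := h.anti R m hm
  have h2 := h.nonneg m
  have h3 := h.nonneg R
  have h4 : (0 : ℝ) ≤ R := Nat.cast_nonneg R
  rw [Real.dist_eq, sub_zero, abs_of_nonneg h2]
  nlinarith

/-- the sup-norm distance as a natural number -/
def nd (y x : ℤ × ℤ) : ℕ := (supDist y x).toNat

lemma nd_cast (y x : ℤ × ℤ) : (nd y x : ℤ) = supDist y x :=
  Int.toNat_of_nonneg (le_max_of_le_left (abs_nonneg _))

lemma nd_comm (y x : ℤ × ℤ) : nd y x = nd x y := by
  unfold nd supDist
  rw [abs_sub_comm y.1, abs_sub_comm y.2]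

lemma summable_int : Summable fun i : ℤ => 1 / (|(i : ℝ)| + 1) ^ 2 := by
  have h0 : Summable fun m : ℕ => 1 / ((m : ℝ) + 1) ^ 2 := by
    have := (summable_nat_add_iff 1).2 (Real.summable_one_div_nat_pow.2 one_lt_two)
    simpa using this
  refine Summable.of_nat_of_neg ?_ ?_ <;> simpa using h0

/-- summability over the lattice -/
theorem rec_sum (h : Rec α D) : ∃ K : ℝ, 0 < K ∧ ∀ (x : ℤ × ℤ) (A : Finset (ℤ × ℤ)),
    ∑ y ∈ A, α (nd y x) ≤ K := by
  obtain ⟨K, hK, hk⟩ := rec_poly h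
  set u : ℤ → ℝ := fun i => 1 / (|(i : ℝ)| + 1) ^ 2 with hu
  have hu0 : ∀ i, 0 ≤ u i := fun i => by positivity
  have hs : Summable fun p : ℤ × ℤ => u p.1 * u p.2 :=
    Summable.mul_of_nonneg summable_int summable_int hu0 hu0
  have hT : 0 ≤ ∑' p : ℤ × ℤ, u p.1 * u p.2 := tsum_nonneg fun p => mul_nonneg (hu0 _) (hu0 _)
  refine ⟨K * (1 + ∑' p : ℤ × ℤ, u p.1 * u p.2), by positivity, fun x A => ?_⟩
  have h1 : ∀ y : ℤ × ℤ, α (nd y x) ≤ K * (u (y - x).1 * u (y - x).2) := by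
    intro y
    refine (hk _).trans ?_
    have e : ((nd y x : ℕ) : ℝ) = max |((y - x).1 : ℝ)| |((y - x).2 : ℝ)| := by
      have := nd_cast y x
      unfold supDist at this
      have h2 : ((nd y x : ℤ) : ℝ) = ((max |y.1 - x.1| |y.2 - x.2| : ℤ) : ℝ) := by rw [this]
      push_cast at h2
      simpa using h2
    rw [e, hu]
    simp only
    rw [div_mul_div_comm, one_mul, mul_one_div]
    refine div_le_div_of_nonneg_left hK.le (by positivity) ?_
    have h3 := le_max_left |((y - x).1 : ℝ)| |((y - x).2 : ℝ)|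
    have h4 := le_max_right |((y - x).1 : ℝ)| |((y - x).2 : ℝ)|
    calc _ ≤ (max |((y - x).1 : ℝ)| |((y - x).2 : ℝ)| + 1) ^ 2 *
          (max |((y - x).1 : ℝ)| |((y - x).2 : ℝ)| + 1) ^ 2 := by gcongr
      _ = _ := by ring
  have h2 : ∑ y ∈ A, u (y - x).1 * u (y - x).2 ≤ ∑' p : ℤ × ℤ, u p.1 * u p.2 := by
    have h3 := hs.sum_le_tsum (A.map (Equiv.subRight x).toEmbedding)
      (fun p _ => mul_nonneg (hu0 _) (hu0 _))
    rwa [Finset.sum_map] at h3
  calc ∑ y ∈ A, α (nd y x) ≤ ∑ y ∈ A, K * (u (y - x).1 * u (y - x).2) :=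
        Finset.sum_le_sum fun y _ => h1 y
    _ = K * ∑ y ∈ A, u (y - x).1 * u (y - x).2 := by rw [Finset.mul_sum]
    _ ≤ _ := mul_le_mul_of_nonneg_left (by linarith) hK.le

end Vale.Agent.N163
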