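import Vale.Agent.N163.Resp
import Vale.Agent.N163.Rate
import Vale.Agent.P163W43.Main
import Vale.Agent.P163.H354.Inf

/-!
External fields: existence of Gibbs states, linear response, Gaussian bound.
-/

open MeasureTheory Filter Topology
open scoped RealInnerProductSpace

set_option linter.unusedSectionVars false

namespace Vale.Agent.N163

open Vale.Agent.P163 Vale.Agent.P163.MW Vale.Agent.P163.H841 Vale.Agent.P163.Universal

variable {n : ℕ} [NeZero n]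

lemma integral_tilt (β : ℝ) (Λ : Finset Z2) {F U : (Z2 → Spin n) → ℝ} (hF : Continuous F)
    (hU : Continuous U) (η : Z2 → Spin n) :
    ∫ s, F (glue Λ s η) ∂((bcState n β Λ η).tilted fun s => U (glue Λ s η)) =
      Gb Λ (fun σ => HL β Λ σ + U σ) F η := by
  rw [Gb_tilt (continuous_HL β Λ), ← integral_bcState β Λ (cfe hF hU),
    ← integral_bcState β Λ (cexp hU), integral_tilted, ← integral_div]
  congr 1
  funext s
  rw [smul_eq_mul]
  ring

lemma bc_prob (β : ℝ) (Λ : Finset Z2) (η : Z2 → Spin n) :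
    IsProbabilityMeasure (bcState n β Λ η) := by
  have := Vale.Agent.P163W43.unif_prob (n := n)
  refine isProbabilityMeasure_tilted ?_
  exact Continuous.integrable_of_hasCompactSupport
    ((cexp (continuous_HL β Λ)).comp (continuous_glue Λ η)) (HasCompactSupport.of_compactSpace _)

lemma tilt_prob (β : ℝ) (Λ : Finset Z2) (η : Z2 → Spin n) {U : (Λ → Spin n) → ℝ}
    (hU : Continuous U) : IsProbabilityMeasure ((bcState n β Λ η).tilted U) := by
  have := bc_prob β Λ η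
  refine isProbabilityMeasure_tilted ?_
  exact Continuous.integrable_of_hasCompactSupport (Real.continuous_exp.comp hU)
    (HasCompactSupport.of_compactSpace _)

lemma norm_integral_le {X : Type} [TopologicalSpace X] [CompactSpace X] [MeasurableSpace X]
    [OpensMeasurableSpace X] {ν : Measure X} [IsFiniteMeasure ν] {v : X → E n}
    (hv : Continuous v) {M : ℝ} (hM : 0 ≤ M)
    (h : ∀ w : E n, ‖w‖ = 1 → |∫ s, ⟪w, v s⟫ ∂ν| ≤ M) : ‖∫ s, v s ∂ν‖ ≤ M := by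
  have hi : Integrable v ν :=
    Continuous.integrable_of_hasCompactSupport hv (HasCompactSupport.of_compactSpace _)
  by_cases h0 : ∫ s, v s ∂ν = 0
  · rw [h0, norm_zero]; exact hM
  · have hp : 0 < ‖∫ s, v s ∂ν‖ := norm_pos_iff.2 h0
    have h1 := h (‖∫ s, v s ∂ν‖⁻¹ • ∫ s, v s ∂ν) (norm_smul_inv_norm h0)
    rw [integral_inner hi, real_inner_smul_left, real_inner_self_eq_norm_sq] at h1
    have e : ‖∫ s, v s ∂ν‖⁻¹ * ‖∫ s, v s ∂ν‖ ^ 2 = ‖∫ s, v s ∂ν‖ := by field_simp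
    rw [e] at h1
    exact (le_abs_self _).trans h1

/-- the response in a finite region, in the form of the statement -/
theorem region_response (β : ℝ) {Λ : Finset Z2} (η : Z2 → Spin n) {x : Z2} {r : ℕ}
    (hΛ : ∀ y, supDist y x < r → y ∈ Λ) {N : ℕ} {V : Fin N → (Z2 → Spin n) → ℝ}
    {a : Fin N → ℝ} {d : Fin N → ℕ}
    (h : ∀ i, Continuous (V i) ∧ (∀ σ, |V i σ| ≤ a i) ∧
      ∀ σ τ : Z2 → Spin n, (∀ y, (d i : ℤ) ≤ supDist y x → σ y = τ y) → V i σ = V i τ) :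
    (∀ i, 0 ≤ a i) ∧
    ‖∫ s, (glue Λ s η x : E n) ∂((bcState n β Λ η).tilted fun s => ∑ i, V i (glue Λ s η))‖ ≤
      al n β r + 12 * ∑ i, a i * al n β (d i) := by
  have hP : Pert x V a d := ⟨fun i => (h i).1, fun i => (h i).2.1, fun i ξ σ =>
    (h i).2.2 _ _ fun y hy => Finset.piecewise_eq_of_notMem _ _ _
      fun hm => absurd (mem_Bx.1 hm) (not_lt.2 hy)⟩
  have hU : Continuous fun σ : Z2 → Spin n => ∑ i, V i σ :=
    continuous_finsetSum _ fun i _ => (h i).1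
  have := tilt_prob β Λ η (hU.comp (continuous_glue Λ η))
  refine ⟨hP.nonneg, norm_integral_le (ν := (bcState n β Λ η).tilted
    ((fun σ : Z2 → Spin n => ∑ i, V i σ) ∘ fun s => glue Λ s η))
    (continuous_subtype_val.comp ((continuous_apply x).comp (continuous_glue Λ η))) ?_
    fun w hw => ?_⟩
  · have h1 := al_nonneg n β r
    have h2 : 0 ≤ ∑ i, a i * al n β (d i) :=
      Finset.sum_nonneg fun i _ => mul_nonneg (hP.nonneg i) (al_nonneg n β _)
    linarith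
  · have h1 := integral_tilt β Λ (continuous_ip w x) hU η
    have h2 := response (β := β) hP Finset.univ (Λ := Λ) (r := r)
      (fun y hy => hΛ y (mem_Bx.1 hy)) hw η
    exact h1.symm ▸ h2

/-! ### Fields -/

/-- the energy of the spin at `y` in the field `h` -/
noncomputable def fld (h : Z2 → E n) (y : Z2) (σ : Z2 → Spin n) : ℝ := ⟪h y, (σ y : E n)⟫

lemma continuous_fld (h : Z2 → E n) (y : Z2) : Continuous (fld h y) := continuous_ip (h y) y

lemma fld_le (h : Z2 → E n) (y : Z2) (σ : Z2 → Spin n) : |fld h y σ| ≤ ‖h y‖ := by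
  have := abs_real_inner_le_norm (h y) (σ y : E n)
  rwa [mw_spin_norm, mul_one] at this

lemma noDep_fld (h : Z2 → E n) {y : Z2} {D : Finset Z2} (hy : y ∉ D) : NoDep D (fld h y) := by
  intro ξ σ
  unfold fld
  rw [Finset.piecewise_eq_of_notMem _ _ _ hy]

lemma pert_fld (h : Z2 → E n) (x : Z2) : Pert x (fld h) (fun y => ‖h y‖) (fun y => nd y x) :=
  ⟨continuous_fld h, fld_le h, fun y => noDep_fld h fun hm => by
    have := mem_Bx.1 hm
    rw [nd_cast] at this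
    exact lt_irrefl _ this⟩

lemma kernel_eq (β : ℝ) (h : Z2 → E n) (Λ : Finset Z2) {f : (Z2 → Spin n) → ℝ}
    (hf : Continuous f) (η : Z2 → Spin n) :
    ∫ s, f (glue Λ s η) ∂((bcState n β Λ η).tilted fun s => ∑ y : Λ, ⟪h y, (s y : E n)⟫) =
      Gb Λ (HP β Λ (fld h) Λ) f η := by
  have hU : Continuous fun σ : Z2 → Spin n => ∑ y ∈ Λ, fld h y σ :=
    continuous_finsetSum _ fun y _ => continuous_fld h y
  have e : (fun s : Λ → Spin n => ∑ y : Λ, ⟪h y, (s y : E n)⟫) =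
      fun s => ∑ y ∈ Λ, fld h y (glue Λ s η) := by
    funext s
    rw [← Finset.sum_coe_sort Λ]
    refine Finset.sum_congr rfl fun y _ => ?_
    unfold fld
    rw [H354.glue_mem y.2]
  rw [e]
  exact integral_tilt β Λ hf hU η

lemma gibbsIn_iff {β : ℝ} {h : Z2 → E n} {μ : Measure (Z2 → Spin n)} :
    IsGibbsIn n β h μ ↔ IsProbabilityMeasure μ ∧ ∀ (Λ : Finset Z2) (f : (Z2 → Spin n) → ℝ),
      Continuous f → ∫ σ, f σ ∂μ = ∫ σ, Gb Λ (HP β Λ (fld h) Λ) f σ ∂μ := by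
  unfold IsGibbsIn
  refine and_congr_right fun _ => forall_congr' fun Λ => forall_congr' fun f =>
    forall_congr' fun hf => ?_
  simp only [kernel_eq β h Λ hf]

lemma gibbsIn_of_state {β : ℝ} {μ : Measure (Z2 → Spin n)}
    (hμ : Model.IsInfiniteVolumeState n β μ) : IsGibbsIn n β 0 μ := by
  obtain ⟨hp, hd⟩ := H354.gibbs_of_state hμ
  refine gibbsIn_iff.2 ⟨hp, fun Λ f hf => ?_⟩
  have e : HP β Λ (fld (0 : Z2 → E n)) Λ = HL β Λ := by
    funext σ; simp [HP, fld]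
  rw [e, hd Λ f hf]
  simp only [integral_bcState β Λ hf]

lemma noDep_field (β : ℝ) (h : Z2 → E n) {Λ Λ' : Finset Z2} (hs : Λ' ⊆ Λ) :
    NoDep Λ' fun σ => HP β Λ (fld h) Λ σ - HP β Λ' (fld h) Λ' σ := by
  intro ξ σ
  have h1 := noDep_HL_HL (n := n) β hs ξ σ
  have h2 : ∑ y ∈ Λ \ Λ', fld h y (Λ'.piecewise ξ σ) = ∑ y ∈ Λ \ Λ', fld h y σ :=
    Finset.sum_congr rfl fun y hy => noDep_fld h (Finset.mem_sdiff.1 hy).2 ξ σ
  have h3 := Finset.sum_sdiff (f := fun y => fld h y σ) hs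
  have h4 := Finset.sum_sdiff (f := fun y => fld h y (Λ'.piecewise ξ σ)) hs
  simp only [HP] at h1 ⊢
  linarith

theorem exists_gibbsIn (β : ℝ) (h : Z2 → E n) : ∃ μ, IsGibbsIn n β h μ := by
  obtain ⟨e⟩ := spin_nonempty (n := n)
  have hp : ∀ Λ : Finset Z2, IsProbabilityMeasure ((bcState n β Λ fun _ => e).tilted
      fun s => ∑ y : Λ, ⟪h y, (s y : E n)⟫) := fun Λ => tilt_prob β Λ _ (by fun_prop)
  obtain ⟨m, φ, hφ, hm⟩ := CompactSpace.tendsto_subseq
    (X := ProbabilityMeasure (Z2 → Spin n)) fun k =>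
      ⟨((bcState n β (Bx 0 k) fun _ => e).tilted
          fun s => ∑ y : Bx 0 k, ⟪h y, (s y : E n)⟫).map fun s => glue (Bx 0 k) s fun _ => e,
        Measure.isProbabilityMeasure_map (continuous_glue _ _).measurable.aemeasurable⟩
  have hlim : ∀ f : (Z2 → Spin n) → ℝ, Continuous f →
      Tendsto (fun k => Gb (Bx 0 (φ k)) (HP β (Bx 0 (φ k)) (fld h) (Bx 0 (φ k))) f fun _ => e)
        atTop (𝓝 (∫ σ, f σ ∂(m : Measure (Z2 → Spin n)))) := by
    intro f hf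
    refine (ProbabilityMeasure.tendsto_iff_forall_integral_tendsto.1 hm
      (BoundedContinuousFunction.mkOfCompact ⟨_, hf⟩)).congr fun k => ?_
    refine (integral_map (continuous_glue _ _).measurable.aemeasurable
      hf.aestronglyMeasurable).trans ?_
    exact kernel_eq β h _ hf _
  refine ⟨m, gibbsIn_iff.2 ⟨m.2, fun Λ f hf => ?_⟩⟩
  have hc := continuous_HP (continuous_fld h) β
  refine tendsto_nhds_unique (hlim f hf) ((hlim _ (continuous_Gb (hc Λ Λ) hf)).congr' ?_)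
  have hev : ∀ᶠ k : ℕ in atTop, Λ ⊆ Bx 0 k := by
    refine (Λ.eventually_all.2 fun y _ => ?_).mono fun _ hk _ hy => hk _ hy
    filter_upwards [eventually_gt_atTop (nd y 0)] with k hk
    rw [mem_Bx, ← nd_cast]
    exact_mod_cast hk
  filter_upwards [hφ.tendsto_atTop.eventually hev] with k hk
  exact Gb_Gb hk (hc _ _) (hc _ _) hf (noDep_field β h hk) _

section bounds

variable {β K H : ℝ} {h : Z2 → E n}

lemma field_sum (hK : ∀ (x : Z2) (A : Finset Z2), ∑ y ∈ A, al n β (nd y x) ≤ K)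
    (hH : ∀ y, ‖h y‖ ≤ H) (x : Z2) (A : Finset Z2) :
    ∑ y ∈ A, ‖h y‖ * al n β (nd y x) ≤ H * K := by
  have h0 : 0 ≤ H := (norm_nonneg _).trans (hH x)
  calc _ ≤ ∑ y ∈ A, H * al n β (nd y x) :=
        Finset.sum_le_sum fun y _ => mul_le_mul_of_nonneg_right (hH y) (al_nonneg n β _)
    _ = H * ∑ y ∈ A, al n β (nd y x) := by rw [Finset.mul_sum]
    _ ≤ H * K := mul_le_mul_of_nonneg_left (hK x A) h0

lemma abs_integral_le {μ : Measure (Z2 → Spin n)} [IsProbabilityMeasure μ]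
    {f : (Z2 → Spin n) → ℝ} {M : ℝ} (hf : ∀ σ, |f σ| ≤ M) : |∫ σ, f σ ∂μ| ≤ M := by
  have h2 := norm_integral_le_of_norm_le_const (μ := μ) (C := M) (f := f)
    (Eventually.of_forall fun σ => by rw [Real.norm_eq_abs]; exact hf σ)
  rw [Real.norm_eq_abs] at h2
  simpa using h2

theorem magnetization (ht : Tendsto (al n β) atTop (𝓝 0))
    (hK : ∀ (x : Z2) (A : Finset Z2), ∑ y ∈ A, al n β (nd y x) ≤ K)
    (hH : ∀ y, ‖h y‖ ≤ H) {μ : Measure (Z2 → Spin n)} (hμ : IsGibbsIn n β h μ) (x : Z2) :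
    ‖∫ σ, (σ x : E n) ∂μ‖ ≤ 12 * (H * K) := by
  obtain ⟨hp, hd⟩ := gibbsIn_iff.1 hμ
  have h0 : 0 ≤ H * K := by simpa using field_sum hK hH x ∅
  refine norm_integral_le (continuous_subtype_val.comp (continuous_apply x)) (by positivity)
    fun w hw => ?_
  have h1 : ∀ r : ℕ, |∫ σ, ⟪w, (σ x : E n)⟫ ∂μ| ≤ al n β r + 12 * (H * K) := by
    intro r
    rw [hd (Bx x r) _ (continuous_ip w x)]
    refine abs_integral_le fun σ => ?_
    have h2 := response (β := β) (pert_fld h x) (Bx x r) (Finset.Subset.refl (Bx x r)) hw σ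
    have h3 := field_sum hK hH x (Bx x r)
    linarith
  have h2 := ge_of_tendsto' (ht.add_const (12 * (H * K))) h1
  rwa [zero_add] at h2

lemma Gb_exp_le {D : Finset Z2} {H u : (Z2 → Spin n) → ℝ} (hH : Continuous H)
    (hu : Continuous u) {a : ℝ} (ha : ∀ σ, |u σ| ≤ a) (σ : Z2 → Spin n) :
    Gb D H (fun σ => Real.exp (u σ)) σ ≤ Real.exp (|Gb D H u σ| + a ^ 2) := by
  have ha0 : 0 ≤ a := (abs_nonneg _).trans (ha σ)
  by_cases h1 : a ≤ 1
  · have h2 : Gb D H (fun σ => Real.exp (u σ)) σ ≤ Gb D H (fun σ => u σ + (a ^ 2 + 1)) σ := by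
      refine Gb_mono (g := fun σ => u σ + (a ^ 2 + 1)) hH (cexp hu) (hu.add continuous_const)
        (fun τ => ?_) σ
      have h3 := Real.abs_exp_sub_one_sub_id_le (x := u τ) ((ha τ).trans h1)
      have h4 : u τ ^ 2 ≤ a ^ 2 := sq_le_sq.2 (by rw [abs_of_nonneg ha0]; exact ha τ)
      linarith [(abs_le.1 h3).2]
    rw [Gb_add hH hu continuous_const, Gb_const hH] at h2
    have h5 := Real.add_one_le_exp (|Gb D H u σ| + a ^ 2)
    linarith [le_abs_self (Gb D H u σ)]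
  · have h2 := Gb_mono (D := D) hH (cexp hu) (continuous_const (y := Real.exp a))
      (fun τ => Real.exp_le_exp.2 (abs_le.1 (ha τ)).2) σ
    rw [Gb_const hH] at h2
    refine h2.trans (Real.exp_le_exp.2 ?_)
    have := abs_nonneg (Gb D H u σ)
    nlinarith

lemma Gb_ip_le {D : Finset Z2} {H : (Z2 → Spin n) → ℝ} (hH : Continuous H) {x : Z2} {M : ℝ}
    (σ : Z2 → Spin n) (h : ∀ w : E n, ‖w‖ = 1 → |Gb D H (fun σ => ⟪w, (σ x : E n)⟫) σ| ≤ M)
    (v : E n) : |Gb D H (fun σ => ⟪v, (σ x : E n)⟫) σ| ≤ ‖v‖ * M := by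
  by_cases h0 : v = 0
  · subst h0
    simp only [inner_zero_left, Gb_const hH, abs_zero, norm_zero, zero_mul, le_refl]
  · have hp : 0 < ‖v‖ := norm_pos_iff.2 h0
    have h1 := h (‖v‖⁻¹ • v) (norm_smul_inv_norm h0)
    simp only [real_inner_smul_left] at h1
    rw [Gb_const_mul, abs_mul, abs_of_pos (inv_pos.2 hp), inv_mul_le_iff₀ hp] at h1
    exact h1

lemma gauss_region (hK : ∀ (x : Z2) (A : Finset Z2), ∑ y ∈ A, al n β (nd y x) ≤ K)
    (hH : ∀ y, ‖h y‖ ≤ H) (g : Z2 → E n) (Λ : Finset Z2) (r : ℕ) (η : Z2 → Spin n)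
    (S : Finset Z2) : (∀ x ∈ S, Bx x r ⊆ Λ) →
    Gb Λ (HP β Λ (fld h) Λ) (fun σ => Real.exp (∑ x ∈ S, fld g x σ)) η ≤
      Real.exp (∑ x ∈ S, (‖g x‖ ^ 2 + ‖g x‖ * (al n β r + 12 * (H * K))) +
        12 * ∑ x ∈ S, ∑ y ∈ S, ‖g x‖ * (‖g y‖ * al n β (nd y x))) := by
  have hc := continuous_HP (continuous_fld h) β Λ Λ
  induction S using Finset.induction_on with
  | empty => intro _; simp [Gb_const hc]
  | insert x S hx ih =>
    intro hS
    have h1 := ih fun y hy => hS y (Finset.mem_insert_of_mem hy)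
    have hU : Continuous fun σ : Z2 → Spin n => ∑ y ∈ S, fld g y σ :=
      continuous_finsetSum _ fun y _ => continuous_fld g y
    have hZ : 0 < Gb Λ (HP β Λ (fld h) Λ) (fun σ => Real.exp (∑ y ∈ S, fld g y σ)) η :=
      div_pos (Av_pos _ (cfe (cexp hU) hc) (fun _ => by positivity) _) (Gb_den_pos hc η)
    have h2 := Gb_tilt (D := Λ) (U := fun σ => ∑ y ∈ S, fld g y σ)
      (f := fun σ => Real.exp (fld g x σ)) hc η
    rw [eq_div_iff hZ.ne'] at h2
    have e1 : (fun σ => Real.exp (∑ y ∈ insert x S, fld g y σ)) =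
        fun σ => Real.exp (fld g x σ) * Real.exp (∑ y ∈ S, fld g y σ) := by
      funext σ; rw [Finset.sum_insert hx, Real.exp_add]
    rw [e1, ← h2]
    have hP : Pert x (Sum.elim (fld h) (fld g)) (Sum.elim (fun y => ‖h y‖) fun y => ‖g y‖)
        (Sum.elim (fun y => nd y x) fun y => nd y x) :=
      ⟨fun i => by cases i <;> exact continuous_fld _ _, fun i => by cases i <;> exact fld_le _ _,
        fun i => by cases i <;> exact (pert_fld _ x).nd _⟩
    have e2 : (fun σ => HP β Λ (fld h) Λ σ + ∑ y ∈ S, fld g y σ) =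
        HP β Λ (Sum.elim (fld h) (fld g)) (Λ.disjSum S) := by
      funext σ
      simp only [HP, Finset.sum_disjSum, Sum.elim_inl, Sum.elim_inr]
      ring
    have hc2 := continuous_HP hP.cont β Λ (Λ.disjSum S)
    have h3 := Gb_exp_le (D := Λ) hc2 (continuous_fld g x) (fld_le g x) η
    have h4 := Gb_ip_le hc2 η (fun w hw => response (β := β) hP (Λ.disjSum S)
      (hS x (Finset.mem_insert_self x S)) hw η) (g x)
    simp only [Finset.sum_disjSum, Sum.elim_inl, Sum.elim_inr] at h4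
    have h5 := field_sum hK hH x Λ
    rw [e2]
    refine (mul_le_mul h3 h1 hZ.le (Real.exp_pos _).le).trans ?_
    rw [← Real.exp_add, Real.exp_le_exp, Finset.sum_insert hx, Finset.sum_insert hx,
      Finset.sum_insert hx]
    have h6 : ∑ z ∈ S, ∑ y ∈ S, ‖g z‖ * (‖g y‖ * al n β (nd y z)) ≤
        ∑ z ∈ S, ∑ y ∈ insert x S, ‖g z‖ * (‖g y‖ * al n β (nd y z)) :=
      Finset.sum_le_sum fun z _ => Finset.sum_le_sum_of_subset_of_nonneg
        (Finset.subset_insert x S) fun y _ _ =>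
          mul_nonneg (norm_nonneg _) (mul_nonneg (norm_nonneg _) (al_nonneg n β _))
    have h7 : 0 ≤ ‖g x‖ * (‖g x‖ * al n β (nd x x)) :=
      mul_nonneg (norm_nonneg _) (mul_nonneg (norm_nonneg _) (al_nonneg n β _))
    have h8 := mul_le_mul_of_nonneg_left h5 (norm_nonneg (g x))
    rw [← Finset.mul_sum]
    change |Gb Λ _ (fld g x) η| ≤ _ at h4
    linarith

lemma schur (hK : ∀ (x : Z2) (A : Finset Z2), ∑ y ∈ A, al n β (nd y x) ≤ K) (g : Z2 → E n)
    (S : Finset Z2) :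
    ∑ x ∈ S, ∑ y ∈ S, ‖g x‖ * (‖g y‖ * al n β (nd y x)) ≤ K * ∑ x ∈ S, ‖g x‖ ^ 2 := by
  have h1 : ∑ x ∈ S, ∑ y ∈ S, ‖g x‖ ^ 2 * al n β (nd y x) ≤ K * ∑ x ∈ S, ‖g x‖ ^ 2 := by
    rw [Finset.mul_sum]
    refine Finset.sum_le_sum fun x _ => ?_
    rw [← Finset.mul_sum, mul_comm]
    exact mul_le_mul_of_nonneg_right (hK x S) (sq_nonneg _)
  have h2 : ∑ x ∈ S, ∑ y ∈ S, ‖g y‖ ^ 2 * al n β (nd y x) ≤ K * ∑ x ∈ S, ‖g x‖ ^ 2 := by
    rw [Finset.sum_comm]
    simp only [fun x y => nd_comm x y] at h1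
    simpa only [nd_comm] using h1
  have h3 : 2 * ∑ x ∈ S, ∑ y ∈ S, ‖g x‖ * (‖g y‖ * al n β (nd y x)) ≤
      ∑ x ∈ S, ∑ y ∈ S, ‖g x‖ ^ 2 * al n β (nd y x) +
        ∑ x ∈ S, ∑ y ∈ S, ‖g y‖ ^ 2 * al n β (nd y x) := by
    rw [← Finset.sum_add_distrib, Finset.mul_sum]
    refine Finset.sum_le_sum fun x _ => ?_
    rw [← Finset.sum_add_distrib, Finset.mul_sum]
    refine Finset.sum_le_sum fun y _ => ?_
    nlinarith [mul_nonneg (sq_nonneg (‖g x‖ - ‖g y‖)) (al_nonneg n β (nd y x))]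
  linarith

theorem gauss (ht : Tendsto (al n β) atTop (𝓝 0))
    (hK : ∀ (x : Z2) (A : Finset Z2), ∑ y ∈ A, al n β (nd y x) ≤ K)
    (hH : ∀ y, ‖h y‖ ≤ H) {μ : Measure (Z2 → Spin n)} (hμ : IsGibbsIn n β h μ)
    (A : Finset Z2) (g : Z2 → E n) :
    ∫ σ, Real.exp (∑ x ∈ A, ⟪g x, (σ x : E n)⟫) ∂μ ≤
      Real.exp ((1 + 12 * K) * ∑ x ∈ A, (‖g x‖ ^ 2 + H * ‖g x‖)) := by
  obtain ⟨hp, hd⟩ := gibbsIn_iff.1 hμ
  have hH0 : 0 ≤ H := (norm_nonneg _).trans (hH 0)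
  have hU : Continuous fun σ : Z2 → Spin n => ∑ y ∈ A, fld g y σ :=
    continuous_finsetSum _ fun y _ => continuous_fld g y
  have h1 : ∀ r : ℕ, ∫ σ, Real.exp (∑ x ∈ A, fld g x σ) ∂μ ≤
      Real.exp ((1 + 12 * K) * ∑ x ∈ A, (‖g x‖ ^ 2 + H * ‖g x‖) +
        al n β r * ∑ x ∈ A, ‖g x‖) := by
    intro r
    rw [hd (A.biUnion fun x => Bx x r) _ (cexp hU)]
    refine (le_abs_self _).trans (abs_integral_le fun σ => ?_)
    rw [abs_of_nonneg (Gb_nonneg (continuous_HP (continuous_fld h) β _ _) (cexp hU)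
      (fun _ => (Real.exp_pos _).le) σ)]
    refine (gauss_region hK hH g _ r σ A fun x hx =>
      Finset.subset_biUnion_of_mem (fun x => Bx x r) hx).trans (Real.exp_le_exp.2 ?_)
    have h2 := schur hK g A
    have h3 : 0 ≤ H * ∑ x ∈ A, ‖g x‖ :=
      mul_nonneg hH0 (Finset.sum_nonneg fun x _ => norm_nonneg _)
    rw [Finset.sum_add_distrib, Finset.sum_add_distrib, ← Finset.sum_mul, ← Finset.mul_sum]
    nlinarith
  have h2 := ge_of_tendsto' ((Real.continuous_exp.tendsto _).comp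
    ((ht.mul_const (∑ x ∈ A, ‖g x‖)).const_add
      ((1 + 12 * K) * ∑ x ∈ A, (‖g x‖ ^ 2 + H * ‖g x‖)))) h1
  rwa [zero_mul, add_zero] at h2

end bounds

omit [NeZero n] in
theorem main (hn : 3 ≤ n) {β : ℝ} (hβ : 0 < β) :
    ((∃ μ, Model.IsInfiniteVolumeState n β μ) ∧
      ∃ C m : ℝ, 0 < m ∧ ∀ μ, Model.IsInfiniteVolumeState n β μ → IsGibbsIn n β 0 μ ∧
        ∀ x y : ℤ × ℤ, ∫ σ, ⟪(σ x : E n), (σ y : E n)⟫ ∂μ ≤
          C * Real.exp (-m * Model.dist2 x y)) ∧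
    (∀ j : ℕ, 1 ≤ j → ∃ C c : ℝ, 0 < c ∧
      ∀ (Λ : Finset (ℤ × ℤ)) (η : ℤ × ℤ → Spin n) (x : ℤ × ℤ) (r : ℕ),
        (∀ y, supDist y x < r → y ∈ Λ) →
        ∀ (N : ℕ) (V : Fin N → (ℤ × ℤ → Spin n) → ℝ) (a : Fin N → ℝ) (d : Fin N → ℕ),
          (∀ i, Continuous (V i) ∧ (∀ σ, |V i σ| ≤ a i) ∧
            ∀ σ τ, (∀ y, (d i : ℤ) ≤ supDist y x → σ y = τ y) → V i σ = V i τ) →
          ‖∫ s, (glue Λ s η x : E n)
              ∂((bcState n β Λ η).tilted fun s => ∑ i, V i (glue Λ s η))‖ ≤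
            C * (rate c j r + ∑ i, a i * rate c j (d i))) ∧
    (∀ h, ∃ μ, IsGibbsIn n β h μ) ∧
    ∃ C : ℝ, ∀ (h : ℤ × ℤ → E n) (H : ℝ), (∀ y, ‖h y‖ ≤ H) → ∀ μ, IsGibbsIn n β h μ →
      (∀ x, ‖∫ σ, (σ x : E n) ∂μ‖ ≤ C * H) ∧
      ∀ (A : Finset (ℤ × ℤ)) (g : ℤ × ℤ → E n),
        ∫ σ, Real.exp (∑ x ∈ A, ⟪g x, (σ x : E n)⟫) ∂μ ≤
          Real.exp (C * ∑ x ∈ A, (‖g x‖ ^ 2 + H * ‖g x‖)) := by
  have : NeZero n := ⟨by omega⟩
  have hrec := rec_al hn hβ.le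
  obtain ⟨C, m, hm, H⟩ := model_decay (bridge hn hβ fun _ hε => MB_decay hn hβ.le hε)
  refine ⟨⟨Vale.Agent.P163W43.exists_state β fun _ => false, C, m, hm,
    fun μ hμ => ⟨gibbsIn_of_state hμ, H μ hμ⟩⟩, fun j hj => ?_, exists_gibbsIn β, ?_⟩
  · obtain ⟨j, rfl⟩ := Nat.exists_eq_add_of_le' hj
    obtain ⟨C, c, hC, hc, hb⟩ := rec_rate hrec j
    refine ⟨12 * C, c, hc, fun Λ η x r hΛ N V a d h => ?_⟩
    obtain ⟨ha, h1⟩ := region_response β η hΛ h
    refine h1.trans ?_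
    have h2 : ∑ i, a i * al n β (d i) ≤ C * ∑ i, a i * rate c (j + 1) (d i) := by
      rw [Finset.mul_sum]
      refine Finset.sum_le_sum fun i _ => ?_
      have := mul_le_mul_of_nonneg_left (hb (d i)) (ha i)
      linarith
    have h3 := hb r
    have h4 := al_nonneg n β r
    linarith
  · obtain ⟨K, hK, hs⟩ := rec_sum hrec
    refine ⟨1 + 12 * K, fun h H hH μ hμ => ⟨fun x => ?_, gauss (rec_tendsto hrec) hs hH hμ⟩⟩
    have h1 := magnetization (rec_tendsto hrec) hs hH hμ x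
    have h2 : 0 ≤ H := (norm_nonneg _).trans (hH x)
    linarith

end Vale.Agent.N163
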