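import Vale.Agent.P163.H841.Spec

/-!
Response of the magnetization to arbitrary perturbations of the energy.
-/

open MeasureTheory Filter Topology
open scoped RealInnerProductSpace

set_option linter.unusedSectionVars false

namespace Vale.Agent.N163

open Vale.Agent.P163 Vale.Agent.P163.MW Vale.Agent.P163.H841 Vale.Agent.P163.Universal

variable {n : ℕ}

/-- the open box of radius `s` about `x` -/
noncomputable def Bx (x : Z2) (s : ℕ) : Finset Z2 :=
  inn (x.1 - (s : ℤ), x.2 - (s : ℤ)) (2 * (s : ℤ))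

lemma mem_Bx {x y : Z2} {s : ℕ} : y ∈ Bx x s ↔ supDist y x < s := by
  unfold Bx supDist
  rw [mem_inn, max_lt_iff, abs_lt, abs_lt]
  simp only
  omega

lemma Bx_mono (x : Z2) {s t : ℕ} (h : s ≤ t) : Bx x s ⊆ Bx x t := by
  intro y hy
  rw [mem_Bx] at hy ⊢
  exact hy.trans_le (by exact_mod_cast h)

variable [NeZero n]

lemma noDep_HL_HL (β : ℝ) {Λ Λ' : Finset Z2} (h : Λ' ⊆ Λ) :
    NoDep Λ' (fun σ : Z2 → Spin n => HL β Λ σ - HL β Λ' σ) := by
  refine noDep_of_sites _ fun y hy => ?_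
  have h1 := noDep_restSum (n := n) Λ y
  have h2 := noDep_restSum (n := n) Λ' y
  intro ξ σ
  have h3 := h1 ξ σ
  have h4 := h2 ξ σ
  have h5 := bondSum_split (n := n) (h hy) σ
  have h6 := bondSum_split (n := n) (h hy) (({y} : Finset Z2).piecewise ξ σ)
  have h7 := bondSum_split (n := n) hy σ
  have h8 := bondSum_split (n := n) hy (({y} : Finset Z2).piecewise ξ σ)
  unfold HL
  beta_reduce
  rw [h5, h6, h7, h8, h3, h4]
  ring

section tilt

variable {D : Finset Z2} {H U f : (Z2 → Spin n) → ℝ}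

lemma Gb_tilt (hH : Continuous H) (σ : Z2 → Spin n) :
    Gb D (fun σ => H σ + U σ) f σ =
      Gb D H (fun σ => f σ * Real.exp (U σ)) σ / Gb D H (fun σ => Real.exp (U σ)) σ := by
  have hpos := Gb_den_pos (D := D) hH σ
  unfold Gb
  rw [div_div_div_cancel_right₀ hpos.ne']
  congr 2
  · funext τ
    rw [Real.exp_add]; ring
  · funext τ
    rw [Real.exp_add]; ring

lemma Gb_add_noDep (hH : Continuous H) (hU : NoDep D U) (σ : Z2 → Spin n) :
    Gb D (fun σ => H σ + U σ) f σ = Gb D H f σ := by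
  rw [Gb_tilt hH]
  have h1 : NoDep D fun σ => Real.exp (U σ) := hU.comp Real.exp
  have e1 : (fun σ => f σ * Real.exp (U σ)) = fun σ => Real.exp (U σ) * f σ := by
    funext τ; ring
  have e2 : (fun σ => Real.exp (U σ)) = fun σ => Real.exp (U σ) * (fun _ => (1 : ℝ)) σ := by
    funext τ; simp
  rw [e1, Gb_mul_of_NoDep h1, e2, Gb_mul_of_NoDep h1, Gb_const hH, mul_one]
  exact mul_div_cancel_left₀ _ (Real.exp_pos _).ne'

lemma exp_small {a u : ℝ} (ha : a ≤ 1 / 6) (hu : |u| ≤ a) :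
    |Real.exp u - 1| ≤ 7 / 6 * a ∧ 5 / 6 ≤ Real.exp u := by
  have h0 := abs_nonneg u
  have h1 := Real.abs_exp_sub_one_sub_id_le (x := u) (by linarith)
  have h2 : u ^ 2 ≤ a / 6 := by
    rw [← sq_abs]; nlinarith
  have h3 := Real.add_one_le_exp u
  have h4 := abs_le.1 hu
  have h5 := abs_le.1 h1
  refine ⟨abs_le.2 ⟨by linarith, by linarith⟩, by linarith⟩

/-- the effect of one perturbation that does not depend on the spins in `B` -/
lemma add_one {B : Finset Z2} (hB : B ⊆ D) {H' : (Z2 → Spin n) → ℝ} (hH : Continuous H)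
    (hH' : Continuous H') (hf : Continuous f) (hU : Continuous U)
    (hd : NoDep B fun σ => H σ - H' σ) (hUd : NoDep B U) {a b : ℝ} (ha : a ≤ 1 / 6)
    (hUa : ∀ σ, |U σ| ≤ a) (hb : ∀ τ, |Gb B H' f τ| ≤ b) (σ : Z2 → Spin n) :
    |Gb D (fun σ => H σ + U σ) f σ - Gb D H f σ| ≤ 3 * a * b := by
  have ha0 : 0 ≤ a := (abs_nonneg _).trans (hUa σ)
  have hb0 : 0 ≤ b := (abs_nonneg _).trans (hb σ)
  have hG := continuous_Gb (D := B) hH' hf
  have hg : Continuous fun σ => Real.exp (U σ) - 1 := (cexp hU).sub continuous_const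
  have hgd : NoDep B fun σ => Real.exp (U σ) - 1 := hUd.comp fun t => Real.exp t - 1
  have h1 : |Gb D H f σ| ≤ b := by
    rw [← Gb_Gb hB hH hH' hf hd σ]
    exact Gb_abs_le hH hG hb σ
  have h2 : |Gb D H (fun σ => Real.exp (U σ) - 1) σ| ≤ 7 / 6 * a :=
    Gb_abs_le hH hg (fun τ => (exp_small ha (hUa τ)).1) σ
  have h3 : |Gb D H (fun σ => (Real.exp (U σ) - 1) * f σ) σ| ≤ 7 / 6 * a * b := by
    have hgf : Continuous fun σ => (Real.exp (U σ) - 1) * f σ := hg.mul hf
    rw [← Gb_Gb hB hH hH' hgf hd σ]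
    refine Gb_abs_le hH (continuous_Gb hH' hgf) (fun τ => ?_) σ
    rw [Gb_mul_of_NoDep (D := B) (H := H') (f := f) hgd τ, abs_mul]
    exact mul_le_mul (exp_small ha (hUa τ)).1 (hb τ) (abs_nonneg _) (by positivity)
  have h4 : 5 / 6 ≤ Gb D H (fun σ => Real.exp (U σ)) σ := by
    have := Gb_mono (D := D) hH (continuous_const (y := (5 / 6 : ℝ))) (cexp hU)
      (fun τ => (exp_small ha (hUa τ)).2) σ
    rwa [Gb_const hH] at this
  have e1 : Gb D H (fun σ => Real.exp (U σ) - 1) σ = Gb D H (fun σ => Real.exp (U σ)) σ - 1 := by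
    rw [Gb_sub hH (cexp hU) continuous_const, Gb_const hH]
  have e2 : Gb D H (fun σ => (Real.exp (U σ) - 1) * f σ) σ =
      Gb D H (fun σ => f σ * Real.exp (U σ)) σ - Gb D H f σ := by
    rw [← Gb_sub hH (cfe hf hU) hf]
    congr 1
    funext τ; ring
  rw [Gb_tilt hH]
  rw [e1] at h2
  rw [e2] at h3
  set Z := Gb D H (fun σ => Real.exp (U σ)) σ
  set X := Gb D H (fun σ => f σ * Real.exp (U σ)) σ
  set m := Gb D H f σ
  have hZ : 0 < Z := by linarith
  have e3 : X / Z - m = ((X - m) - m * (Z - 1)) / Z := by field_simp; ring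
  rw [e3, abs_div, abs_of_pos hZ, div_le_iff₀ hZ]
  have h5 : |m * (Z - 1)| ≤ b * (7 / 6 * a) := by
    rw [abs_mul]
    exact mul_le_mul h1 h2 (abs_nonneg _) hb0
  have h6 := abs_sub (X - m) (m * (Z - 1))
  have h7 : 0 ≤ a * b := mul_nonneg ha0 hb0
  nlinarith

end tilt

/-- A family of perturbations; the term `i` is bounded by `a i` and does not depend on the spins
at distance smaller than `d i` from `x`. -/
structure Pert (x : Z2) {ι : Type} (V : ι → (Z2 → Spin n) → ℝ) (a : ι → ℝ) (d : ι → ℕ) :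
    Prop where
  cont : ∀ i, Continuous (V i)
  bd : ∀ i σ, |V i σ| ≤ a i
  nd : ∀ i, NoDep (Bx x (d i)) (V i)

/-- the perturbed energy -/
noncomputable def HP (β : ℝ) (Λ : Finset Z2) {ι : Type} (V : ι → (Z2 → Spin n) → ℝ)
    (S : Finset ι) (σ : Z2 → Spin n) : ℝ := HL β Λ σ + ∑ i ∈ S, V i σ

section pert

variable {x : Z2} {ι : Type} {V : ι → (Z2 → Spin n) → ℝ} {a : ι → ℝ} {d : ι → ℕ} {β : ℝ}

lemma Pert.nonneg (h : Pert x V a d) (i : ι) : 0 ≤ a i := by
  obtain ⟨s⟩ := spin_nonempty (n := n)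
  exact (abs_nonneg _).trans (h.bd i fun _ => s)

lemma continuous_HP (h : ∀ i, Continuous (V i)) (β : ℝ) (Λ : Finset Z2) (S : Finset ι) :
    Continuous (HP β Λ V S) :=
  (continuous_HL β Λ).add (continuous_finsetSum _ fun i _ => h i)

lemma noDep_HP (β : ℝ) {Λ Λ' : Finset Z2} (h : Λ' ⊆ Λ) (S : Finset ι) :
    NoDep Λ' (fun σ : Z2 → Spin n => HP β Λ V S σ - HP β Λ' V S σ) := by
  have e : (fun σ : Z2 → Spin n => HP β Λ V S σ - HP β Λ' V S σ) =
      fun σ => HL β Λ σ - HL β Λ' σ := by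
    funext σ; unfold HP; ring
  rw [e]
  exact noDep_HL_HL β h

lemma base_bound (β : ℝ) {Λ : Finset Z2} {r : ℕ} (hΛ : Bx x r ⊆ Λ) {w : E n} (hw : ‖w‖ = 1)
    (η : Z2 → Spin n) : |Gb Λ (HL β Λ) (fun σ => ⟪w, (σ x : E n)⟫) η| ≤ al n β r := by
  have h := region_bound (MB_al β r) (Λ := Λ) (x := x) (fun y hy => hΛ (mem_Bx.2 hy)) hw η
  rwa [integral_bcState β Λ (continuous_ip w x) η] at h

lemma core (h : Pert x V a d) (T : Finset ι) {R : ℕ}
    (hA : ∑ i ∈ T with d i < R, a i ≤ 1 / 6) {w : E n} (hw : ‖w‖ = 1) (s : ℕ) :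
    s ≤ R → ∀ S ⊆ T, ∀ η, |Gb (Bx x s) (HP β (Bx x s) V S) (fun σ => ⟪w, (σ x : E n)⟫) η| ≤
      al n β s + 6 * ∑ i ∈ T, a i * al n β (d i) := by
  classical
  set Sg := ∑ i ∈ T, a i * al n β (d i) with hSg
  have hSg0 : 0 ≤ Sg :=
    Finset.sum_nonneg fun i _ => mul_nonneg (h.nonneg i) (al_nonneg n β _)
  have hf := continuous_ip w x
  induction s using Nat.strong_induction_on with
  | _ s ih =>
    intro hs
    have key : ∀ S : Finset ι, S ⊆ T → ∀ η,
        |Gb (Bx x s) (HP β (Bx x s) V S) (fun σ => ⟪w, (σ x : E n)⟫) η -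
          Gb (Bx x s) (HL β (Bx x s)) (fun σ => ⟪w, (σ x : E n)⟫) η| ≤
        3 * ∑ i ∈ S with d i < s, a i * (al n β (d i) + 6 * Sg) := by
      intro S
      induction S using Finset.induction_on with
      | empty =>
        intro _ η
        have e : HP β (Bx x s) V ∅ = HL β (Bx x s) := by
          funext σ; unfold HP; simp
        rw [e]; simp
      | insert i S hi ihS =>
        intro hS η
        have hST : S ⊆ T := (Finset.subset_insert i S).trans hS
        have hiT : i ∈ T := hS (Finset.mem_insert_self i S)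
        have e : HP β (Bx x s) V (insert i S) = fun σ => HP β (Bx x s) V S σ + V i σ := by
          funext σ; unfold HP; rw [Finset.sum_insert hi]; ring
        have hc := continuous_HP h.cont β (Bx x s) S
        have h1 := ihS hST η
        rw [e, Finset.filter_insert]
        by_cases hd : d i < s
        · rw [if_pos hd, Finset.sum_insert (fun hm => hi (Finset.mem_filter.1 hm).1)]
          have hai : a i ≤ 1 / 6 := by
            refine le_trans ?_ hA
            exact Finset.single_le_sum (f := a) (fun k _ => h.nonneg k)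
              (Finset.mem_filter.2 ⟨hiT, hd.trans_le hs⟩)
          have h2 := add_one (Bx_mono x hd.le) hc (continuous_HP h.cont β (Bx x (d i)) S) hf
            (h.cont i) (noDep_HP β (Bx_mono x hd.le) S) (h.nd i) hai (h.bd i)
            (ih (d i) hd (hd.le.trans hs) S hST) η
          have h3 := abs_sub_le
            (Gb (Bx x s) (fun σ => HP β (Bx x s) V S σ + V i σ) (fun σ => ⟪w, (σ x : E n)⟫) η)
            (Gb (Bx x s) (HP β (Bx x s) V S) (fun σ => ⟪w, (σ x : E n)⟫) η)
            (Gb (Bx x s) (HL β (Bx x s)) (fun σ => ⟪w, (σ x : E n)⟫) η)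
          linarith
        · rw [if_neg hd, Gb_add_noDep hc ((h.nd i).mono (Bx_mono x (not_lt.1 hd)))]
          exact h1
    intro S hS η
    have h1 := key S hS η
    have h2 := base_bound (n := n) β (Finset.Subset.refl (Bx x s)) hw η
    have h3 : ∑ i ∈ S with d i < s, a i * (al n β (d i) + 6 * Sg) ≤ 2 * Sg := by
      have h4 : ∑ i ∈ S with d i < s, a i * al n β (d i) ≤ Sg :=
        Finset.sum_le_sum_of_subset_of_nonneg ((Finset.filter_subset _ _).trans hS)
          fun i _ _ => mul_nonneg (h.nonneg i) (al_nonneg n β _)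
      have h5 : ∑ i ∈ S with d i < s, a i ≤ 1 / 6 := by
        refine le_trans ?_ hA
        refine Finset.sum_le_sum_of_subset_of_nonneg (fun i hi => ?_) fun i _ _ => h.nonneg i
        rw [Finset.mem_filter] at hi ⊢
        exact ⟨hS hi.1, hi.2.trans_le hs⟩
      simp only [mul_add]
      rw [Finset.sum_add_distrib, ← Finset.sum_mul]
      nlinarith
    have h6 := abs_sub_abs_le_abs_sub
      (Gb (Bx x s) (HP β (Bx x s) V S) (fun σ => ⟪w, (σ x : E n)⟫) η)
      (Gb (Bx x s) (HL β (Bx x s)) (fun σ => ⟪w, (σ x : E n)⟫) η)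
    linarith

/-- Linear response, for perturbations of any size. -/
theorem response (h : Pert x V a d) (T : Finset ι) {Λ : Finset Z2} {r : ℕ} (hΛ : Bx x r ⊆ Λ)
    {w : E n} (hw : ‖w‖ = 1) (η : Z2 → Spin n) :
    |Gb Λ (HP β Λ V T) (fun σ => ⟪w, (σ x : E n)⟫) η| ≤
      al n β r + 12 * ∑ i ∈ T, a i * al n β (d i) := by
  classical
  set Sg := ∑ i ∈ T, a i * al n β (d i) with hSg
  have hSg0 : 0 ≤ Sg :=
    Finset.sum_nonneg fun i _ => mul_nonneg (h.nonneg i) (al_nonneg n β _)
  have hf := continuous_ip w x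
  let P : ℕ → Prop := fun R => ∑ i ∈ T with d i < R, a i ≤ 1 / 6
  have hP0 : P 0 := by simp [P]
  set R := Nat.findGreatest P r with hR
  have hRr : R ≤ r := Nat.findGreatest_le r
  have hPR : P R := Nat.findGreatest_spec (Nat.zero_le r) hP0
  have hsub : Bx x R ⊆ Λ := (Bx_mono x hRr).trans hΛ
  have h1 : |Gb Λ (HP β Λ V T) (fun σ => ⟪w, (σ x : E n)⟫) η| ≤ al n β R + 6 * Sg := by
    rw [← Gb_Gb hsub (continuous_HP h.cont β Λ T) (continuous_HP h.cont β (Bx x R) T) hf
      (noDep_HP β hsub T) η]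
    exact Gb_abs_le (continuous_HP h.cont β Λ T)
      (continuous_Gb (continuous_HP h.cont β (Bx x R) T) hf)
      (core h T hPR hw R le_rfl T (Finset.Subset.refl T)) η
  rcases hRr.eq_or_lt with he | hlt
  · rw [he] at h1
    linarith
  · have hn : ¬ P (R + 1) := Nat.findGreatest_is_greatest (by omega) hlt
    have h2 : 1 / 6 < ∑ i ∈ T with d i < R + 1, a i := not_le.1 hn
    have h3 : (∑ i ∈ T with d i < R + 1, a i) * al n β R ≤ Sg := by
      rw [Finset.sum_mul]
      calc ∑ i ∈ T with d i < R + 1, a i * al n β R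
          ≤ ∑ i ∈ T with d i < R + 1, a i * al n β (d i) := by
            refine Finset.sum_le_sum fun i hi => ?_
            have := (Finset.mem_filter.1 hi).2
            exact mul_le_mul_of_nonneg_left (al_anti β (by omega)) (h.nonneg i)
        _ ≤ Sg := Finset.sum_le_sum_of_subset_of_nonneg (Finset.filter_subset _ _)
            fun i _ _ => mul_nonneg (h.nonneg i) (al_nonneg n β _)
    have h4 := al_nonneg n β R
    have h5 := al_nonneg n β r
    nlinarith

end pert

end Vale.Agent.N163
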